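import Mathlib

/-! # P122 / C : the discrete multiscale object, version 2 (general slopes) (helper958), with ACTIVE caps (proposal of helper577)

`K` levels, `n` binary digits per level, `R = 2^(2 K n)`.  Caps of level `i` are indexed by `τ ∈ [0, 2^(i n))²` (dyadic cells of
ANY parametrisation of the surface: frequency cells, stereographic cells or slope cells), `s i τ` is the slope of the tubes of
the cap.  A tube of level `i` has radius `2^(i n)`, length `2^(2 i n)`, slope `s i τ`, time block `T` (times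
`[T, T+1) 2^(2 i n)`), and its axis is at the position `2^(i n) o` at the time `T 2^(2 i n)`.  `S.sg n` is the piece of radius
`2^((i+1) n)` and length `2^(2 i n)` around `S`; `σ.ch s n i τ'` is the tube of level `i + 1` and cap `τ'` through the piece
`σ`. Everything below is a function of integers: exact tree. -/

namespace Vale.Agent.P122.C3

abbrev Z2 := Fin 2 → ℤ

/-- node: cap, offset, time block -/
@[ext] structure Nd where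
  τ : Z2
  o : Z2
  T : ℤ
deriving DecidableEq

/-- the piece `σ` (radius of the next level) around the tube -/
noncomputable def Nd.sg (n : ℕ) (S : Nd) : Nd := ⟨S.τ, fun k => S.o k / 2 ^ n, S.T⟩

/-- the tube of level `i + 1` with cap `τ'` through the piece `σ` of level `i` -/
noncomputable def Nd.ch (s : ℕ → Z2 → Fin 2 → ℝ) (n i : ℕ) (σ : Nd) (τ' : Z2) : Nd :=
  ⟨τ', fun k => ⌊(σ.o k : ℝ) - ((σ.T % 2 ^ (2 * n) : ℤ) : ℝ) * 2 ^ (2 * i * n) * s (i + 1) τ' k / 2 ^ ((i + 1) * n)⌋,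
    σ.T / 2 ^ (2 * n)⟩

/-- the parent of a cap -/
noncomputable def par (n : ℕ) (τ : Z2) : Z2 := fun k => τ k / 2 ^ n

/-- the children of the cap `τ` -/
noncomputable def kids (n : ℕ) (τ : Z2) : Finset Z2 := Fintype.piFinset fun k => Finset.Ico (2 ^ n * τ k) (2 ^ n * (τ k + 1))

/-- `τ` is a cap of level `i` -/
def Cap (n i : ℕ) (τ : Z2) : Prop := ∀ k, 0 ≤ τ k ∧ τ k < 2 ^ (i * n)

/-- first coordinate in the frame `θ` (wide direction) -/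
noncomputable def fw (θ : ℝ) (v : Fin 2 → ℝ) : ℝ := Real.cos θ * v 0 + Real.sin θ * v 1

/-- second coordinate in the frame `θ` (normal direction) -/
noncomputable def fn (θ : ℝ) (v : Fin 2 → ℝ) : ℝ := -Real.sin θ * v 0 + Real.cos θ * v 1

/-- slopes of the ACTIVE caps `P i τ` (only these carry anything; the parent of an active cap is active) -/
structure Slp (C : ℝ) (n K : ℕ) (P : ℕ → Z2 → Prop) (s : ℕ → Z2 → Fin 2 → ℝ) : Prop where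
  cap : ∀ i τ, i ≤ K → P i τ → Cap n i τ
  up : ∀ i τ, i < K → P (i + 1) τ → P i (par n τ)
  bd : ∀ i τ k, i ≤ K → P i τ → |s i τ k| ≤ 1
  nest : ∀ i τ k, i < K → P (i + 1) τ → |s (i + 1) τ k - s i (par n τ) k| ≤ C / 2 ^ (i * n)
  lip : ∀ i τ τ' k, i ≤ K → P i τ → P i τ' →
    |s i τ k - s i τ' k| ≤ C * (|(τ 0 : ℝ) - τ' 0| + |(τ 1 : ℝ) - τ' 1| + 1) / 2 ^ (i * n)
  colip : ∀ i τ τ', i ≤ K → P i τ → P i τ' →
    |(τ 0 : ℝ) - τ' 0| + |(τ 1 : ℝ) - τ' 1| ≤ C * (2 ^ (i * n) * (|s i τ 0 - s i τ' 0| + |s i τ 1 - s i τ' 1|) + 1)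

/-- multiscale amplitudes. `A i S G` = amplitude on the tube `S` (level `i`) of the sum of the pieces of the caps in `G`
(children of `S.τ`), `a i S` = amplitude of the piece of the cap `S.τ`. -/
structure Amp (C : ℝ) (n K : ℕ) where
  P : ℕ → Z2 → Prop
  s : ℕ → Z2 → Fin 2 → ℝ
  slp : Slp C n K P s
  A : ℕ → Nd → Finset Z2 → ℝ
  a : ℕ → Nd → ℝ
  a0 : ∀ i S, 0 ≤ a i S
  A0 : ∀ i S G, 0 ≤ A i S G
  act : ∀ i S, i ≤ K → a i S ≠ 0 → P i S.τ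
  kid : ∀ i S, i < K → P i S.τ → ∃ G : Finset Z2, G ⊆ kids n S.τ ∧ (∀ τ' ∈ G, P (i + 1) τ') ∧ a i S ≤ A i S G
  tri : ∀ i S G G', i < K → Disjoint G G' → A i S (G ∪ G') ≤ A i S G + A i S G'
  /-- [L] -/
  L1 : ∀ i S G, i < K → P i S.τ → G ⊆ kids n S.τ → (∀ τ' ∈ G, P (i + 1) τ') → A i S G ≤ C * ∑ τ' ∈ G, a (i + 1) ((S.sg n).ch s n i τ')
  /-- [B1] local `L²` on discs -/
  B1 : ∀ i σ G, i < K → P i σ.τ → G ⊆ kids n σ.τ → (∀ τ' ∈ G, P (i + 1) τ') → ∀ U : Finset Nd, (∀ S ∈ U, S.sg n = σ) →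
    ∑ S ∈ U, A i S G ^ 2 ≤ C * 2 ^ (2 * n) * ∑ τ' ∈ G, a (i + 1) (σ.ch s n i τ') ^ 2
  /-- [B2] local `L²` along the direction `θ` on strips; `ψ` = direction of the columns (in the index plane): the frequency
  coordinate along `θ`. A column and the normal slope determine the cap up to `O(1)` (definiteness). -/
  B2 : ∀ i τ θ, 1 ≤ i → i < K → P i τ → ∃ ψ : Fin 2 → ℝ, |ψ 0| ≤ C ∧ |ψ 1| ≤ C ∧
    (∀ τ' ∈ kids n τ, ∀ τ'' ∈ kids n τ, P (i + 1) τ' → P (i + 1) τ'' → |(τ' 0 : ℝ) - τ'' 0| + |(τ' 1 : ℝ) - τ'' 1| ≤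
      C * (|ψ 0 * (τ' 0 - τ'' 0) + ψ 1 * (τ' 1 - τ'' 1)| + 2 ^ ((i + 1) * n) * |fn θ (s (i + 1) τ') - fn θ (s (i + 1) τ'')| + 1)) ∧
    ∀ (σ : Nd) (G : Finset Z2) (k : ℕ), σ.τ = τ → G ⊆ kids n τ → (∀ τ' ∈ G, P (i + 1) τ') →
      (∀ r : ℝ, (G.filter fun τ' => |ψ 0 * τ' 0 + ψ 1 * τ' 1 - r| ≤ 1).card ≤ k) →
      ∀ (U : Finset Nd) (r : ℝ), (∀ S ∈ U, S.sg n = σ ∧ |fn θ (fun j => (S.o j : ℝ)) - r| ≤ 1) →
        ∑ S ∈ U, A i S G ^ 2 ≤ C * 2 ^ n * k * ∑ τ' ∈ G, a (i + 1) (σ.ch s n i τ') ^ 2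
  /-- support -/
  supp : ∀ S, a K S ≠ 0 → S.T = 0 ∧ ∀ k, |(S.o k : ℝ)| ≤ C * 2 ^ (K * n)

/-- Katz-Tao condition at the top level: planks of normalised widths `u1 ≤ u2` -/
def KTop {C : ℝ} {n K : ℕ} (F : Amp C n K) (Λ : ℝ) : Prop :=
  ∀ (θ u1 u2 : ℝ) (p v : Fin 2 → ℝ) (U : Finset Nd), (1 / 2 : ℝ) ^ (K * n) ≤ u1 → u1 ≤ u2 → u2 ≤ 1 →
    (∀ S ∈ U, |fw θ (fun j => (S.o j : ℝ) / 2 ^ (K * n) - p j)| ≤ u2 ∧ |fn θ (fun j => (S.o j : ℝ) / 2 ^ (K * n) - p j)| ≤ u1 ∧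
      |fw θ (fun j => F.s K S.τ j - v j)| ≤ u2 ∧ |fn θ (fun j => F.s K S.τ j - v j)| ≤ u1) →
    ∑ S ∈ U, F.a K S ^ 2 ≤ Λ * (u1 * u2 * 2 ^ (2 * K * n))

/-- [CORE] the multiscale theorem. The constant `C` may depend on `K`. -/
def StCORE : Prop := ∀ δ : ℝ, 0 < δ → ∃ K : ℕ, 1 ≤ K ∧ ∀ C : ℝ, 1 ≤ C → ∃ C' : ℝ, 0 ≤ C' ∧ ∀ (n : ℕ) (F : Amp C n K) (Λ Q : ℝ),
  KTop F Λ → (∀ U : Finset Nd, ∑ S ∈ U, F.a K S ^ 2 ≤ Q) →
  ∀ X : Finset Nd, (∀ x ∈ X, x.τ = 0 ∧ 0 ≤ x.T ∧ x.T < 2 ^ (2 * K * n)) →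
    ∑ x ∈ X, F.a 0 x ^ 3 ≤ C' * 2 ^ (δ * (K * n)) * Real.sqrt Λ * 2 ^ (4 * K * n) * Q

end Vale.Agent.P122.C3
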